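import Vale.Agent.P088.R2.H455.S4.SpecB
import Vale.Agent.P088.R2.H238.S3.P3

/-!
# P088, stage 4, row P3N, the half of (GE): the cut-off and its derivatives
-/

open MeasureTheory Set
open scoped ContDiff Matrix Topology

noncomputable section

namespace Vale.Agent.P088.S4.H870.P3N

open Vale.Agent.P088.LR Vale.Agent.P088.LR.U Vale.Agent.P088.LR.H158
open Vale.Agent.P088.HY.T3 (Eb e0 Ao Ac iv)
open Vale.Agent.P088.HY.T4 (gx gy kk Oc Zq cg Lvl)
open Vale.Agent.P088.R2.H238.S3 (cp dfr pmul padd psub smx pd_loc ex_cut)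
open Vale.Agent.P088.R2.H238.S3.P3 (cut_bd acut gx_cd gx_on Ao_ne gy_lvl gx_far cg_one cg_zero
  iv_cd gy_cd)

variable {n : ℕ}

theorem pd_tsupport {f : V n → ℝ} {x : V n} (hx : x ∉ tsupport f) (k : Fin n) : pd k f x = 0 := by
  have h1 : f =ᶠ[𝓝 x] fun _ => (0 : ℝ) := notMem_tsupport_iff_eventuallyEq.1 hx
  unfold pd
  rw [h1.fderiv_eq]
  simp

theorem pd_hcs {f : V n → ℝ} (h : HasCompactSupport f) (k : Fin n) : HasCompactSupport (pd k f) := by
  refine HasCompactSupport.of_support_subset_isCompact h fun x hx => ?_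
  by_contra hx'
  exact hx (pd_tsupport hx' k)

/-- Bounds of the derivatives of order `≤ 2` of a compactly supported function. -/
theorem bd2 {f : V n → ℝ} (h1 : ContDiff ℝ ∞ f) (h2 : HasCompactSupport f) :
    ∃ D : ℝ, 0 ≤ D ∧ (∀ k x, |pd k f x| ≤ D) ∧ ∀ k l x, |pd k (pd l f) x| ≤ D := by
  obtain ⟨D₁, hD₁, hd⟩ := cut_bd h1 h2
  have h3 : ∀ l, ∃ D : ℝ, 0 ≤ D ∧ ∀ k x, |pd k (pd l f) x| ≤ D := fun l =>
    cut_bd (cp h1 l) (pd_hcs h2 l)
  choose D₂ hD₂ hd2 using h3
  have h4 : 0 ≤ ∑ l, D₂ l := Finset.sum_nonneg fun l _ => hD₂ l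
  refine ⟨D₁ + ∑ l, D₂ l, by positivity, fun k x => (hd k x).trans (by linarith), ?_⟩
  intro k l x
  refine (hd2 l k x).trans ?_
  have := Finset.single_le_sum (f := D₂) (fun j _ => hD₂ j) (Finset.mem_univ l)
  linarith

/-- The derivatives of the transition. -/
theorem st_d2 : ∃ D : ℝ, 0 ≤ D ∧ (∀ t, |deriv Real.smoothTransition t| ≤ D) ∧
    ∀ t, |deriv (deriv Real.smoothTransition) t| ≤ D := by
  have hs : ContDiff ℝ ∞ Real.smoothTransition := Real.smoothTransition.contDiff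
  have hz : ∀ t, (t < 0 ∨ 1 < t) → deriv Real.smoothTransition t = 0 := by
    intro t ht
    rcases ht with ht | ht
    · have h : Real.smoothTransition =ᶠ[𝓝 t] fun _ => 0 := by
        filter_upwards [Iio_mem_nhds ht] with u hu
        exact Real.smoothTransition.zero_of_nonpos (le_of_lt hu)
      rw [h.deriv_eq]; simp
    · have h : Real.smoothTransition =ᶠ[𝓝 t] fun _ => 1 := by
        filter_upwards [Ioi_mem_nhds ht] with u hu
        exact Real.smoothTransition.one_of_one_le (le_of_lt hu)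
      rw [h.deriv_eq]; simp
  have hz2 : ∀ t, (t < 0 ∨ 1 < t) → deriv (deriv Real.smoothTransition) t = 0 := by
    intro t ht
    have h : deriv Real.smoothTransition =ᶠ[𝓝 t] fun _ => 0 := by
      rcases ht with ht | ht
      · filter_upwards [Iio_mem_nhds ht] with u hu
        exact hz u (Or.inl hu)
      · filter_upwards [Ioi_mem_nhds ht] with u hu
        exact hz u (Or.inr hu)
    rw [h.deriv_eq]; simp
  have hd : ContDiff ℝ ∞ (deriv Real.smoothTransition) := (contDiff_infty_iff_deriv.1 hs).2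
  have hd2 : ContDiff ℝ ∞ (deriv (deriv Real.smoothTransition)) := (contDiff_infty_iff_deriv.1 hd).2
  obtain ⟨D, hD⟩ := (isCompact_Icc (a := (0 : ℝ)) (b := 1)).exists_bound_of_continuousOn
    hd.continuous.continuousOn
  obtain ⟨D', hD'⟩ := (isCompact_Icc (a := (0 : ℝ)) (b := 1)).exists_bound_of_continuousOn
    hd2.continuous.continuousOn
  have h0 : (0 : ℝ) ∈ Icc (0 : ℝ) 1 := ⟨le_rfl, zero_le_one⟩
  have hp : 0 ≤ D := (norm_nonneg _).trans (hD 0 h0)
  have hp' : 0 ≤ D' := (norm_nonneg _).trans (hD' 0 h0)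
  refine ⟨D + D', by positivity, fun t => ?_, fun t => ?_⟩
  · by_cases ht : t ∈ Icc (0 : ℝ) 1
    · exact (hD t ht).trans (by linarith)
    · have : t < 0 ∨ 1 < t := by
        by_contra h
        push Not at h
        exact ht ⟨h.1, h.2⟩
      rw [hz t this, abs_zero]
      positivity
  · by_cases ht : t ∈ Icc (0 : ℝ) 1
    · exact (hD' t ht).trans (by linarith)
    · have : t < 0 ∨ 1 < t := by
        by_contra h
        push Not at h
        exact ht ⟨h.1, h.2⟩
      rw [hz2 t this, abs_zero]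
      positivity

theorem pd_comp {ψ : ℝ → ℝ} {u : V n → ℝ} (hψ : ContDiff ℝ ∞ ψ) (hu : ContDiff ℝ ∞ u) (k : Fin n)
    (x : V n) : pd k (fun y => ψ (u y)) x = deriv ψ (u x) * pd k u x := by
  have h4 : HasDerivAt ψ (deriv ψ (u x)) (u x) := (hψ.differentiable (by simp) _).hasDerivAt
  have h5 := h4.comp_hasFDerivAt x (dfr hu x).hasFDerivAt
  unfold pd
  have h6 : HasFDerivAt (fun y => ψ (u y)) (deriv ψ (u x) • fderiv ℝ u x) x := h5
  rw [h6.fderiv]
  simp only [smul_apply, smul_eq_mul]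

theorem pd_aff {g : V n → ℝ} (hg : ContDiff ℝ ∞ g) (a b : ℝ) (k : Fin n) (x : V n) :
    pd k (fun y => a * g y + b) x = a * pd k g x := by
  have h : HasFDerivAt (fun y => a * g y + b) (a • fderiv ℝ g x) x :=
    ((dfr hg x).hasFDerivAt.const_mul a).add_const b
  unfold pd
  rw [h.fderiv]
  simp only [smul_apply, smul_eq_mul]

/-- The cut-off `ζ st(a g + b)` and its derivatives. -/
theorem chi_bd {ζ g : V n → ℝ} {a b D M R : ℝ} (hζ : ContDiff ℝ ∞ ζ) (hg : ContDiff ℝ ∞ g)
    (hD : 0 ≤ D) (hM : 0 ≤ M) (hR : 1 ≤ R) (ha0 : 0 ≤ a) (ha : a ≤ R)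
    (z0 : ∀ x, |ζ x| ≤ 1) (z1 : ∀ k x, |pd k ζ x| ≤ M) (z2 : ∀ k l x, |pd k (pd l ζ) x| ≤ M)
    (g1 : ∀ k x, |pd k g x| ≤ M) (g2 : ∀ k l x, |pd k (pd l g) x| ≤ M)
    (s1 : ∀ t, |deriv Real.smoothTransition t| ≤ D)
    (s2 : ∀ t, |deriv (deriv Real.smoothTransition) t| ≤ D) :
    (∀ k x, |pd k (fun x => ζ x * Real.smoothTransition (a * g x + b)) x| ≤ (M + D * M) * R) ∧
    ∀ k l x, |pd k (pd l (fun x => ζ x * Real.smoothTransition (a * g x + b))) x| ≤
      (M + 2 * (M * (D * M)) + (D * M ^ 2 + D * M)) * R ^ 2 := by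
  have hs : ContDiff ℝ ∞ Real.smoothTransition := Real.smoothTransition.contDiff
  have hd : ContDiff ℝ ∞ (deriv Real.smoothTransition) := (contDiff_infty_iff_deriv.1 hs).2
  have hu : ContDiff ℝ ∞ fun y => a * g y + b := (contDiff_const.mul hg).add contDiff_const
  have hS : ContDiff ℝ ∞ fun y => Real.smoothTransition (a * g y + b) := hs.comp hu
  have hS' : ContDiff ℝ ∞ fun y => deriv Real.smoothTransition (a * g y + b) := hd.comp hu
  have s0 : ∀ t, |Real.smoothTransition t| ≤ 1 := fun t => by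
    rw [abs_of_nonneg (Real.smoothTransition.nonneg _)]
    exact Real.smoothTransition.le_one _
  have hR2 : R ≤ R ^ 2 := by nlinarith
  have hR1 : 1 ≤ R ^ 2 := by nlinarith
  have e1 : ∀ l, pd l (fun x => ζ x * Real.smoothTransition (a * g x + b)) = fun x =>
      pd l ζ x * Real.smoothTransition (a * g x + b) +
        ζ x * (deriv Real.smoothTransition (a * g x + b) * (a * pd l g x)) := by
    intro l
    funext x
    rw [pmul hζ hS, pd_comp hs hu, pd_aff hg]
  have ap : ∀ l x, |a * pd l g x| ≤ R * M := by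
    intro l x
    rw [abs_mul, abs_of_nonneg ha0]
    exact mul_le_mul ha (g1 l x) (abs_nonneg _) (by linarith)
  have dp : ∀ l x y, |deriv Real.smoothTransition y * (a * pd l g x)| ≤ D * (R * M) := by
    intro l x y
    rw [abs_mul]
    exact mul_le_mul (s1 _) (ap l x) (abs_nonneg _) hD
  constructor
  · intro k x
    rw [e1]
    refine (abs_add_le _ _).trans ?_
    have a1 : |pd k ζ x * Real.smoothTransition (a * g x + b)| ≤ M * 1 := by
      rw [abs_mul]
      exact mul_le_mul (z1 k x) (s0 _) (abs_nonneg _) hM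
    have a2 : |ζ x * (deriv Real.smoothTransition (a * g x + b) * (a * pd k g x))| ≤
        1 * (D * (R * M)) := by
      rw [abs_mul]
      exact mul_le_mul (z0 x) (dp k x _) (abs_nonneg _) zero_le_one
    have a3 : M * 1 ≤ M * R := mul_le_mul_of_nonneg_left hR hM
    calc _ ≤ M * 1 + 1 * (D * (R * M)) := add_le_add a1 a2
      _ ≤ M * R + 1 * (D * (R * M)) := by linarith
      _ = _ := by ring
  · intro k l x
    rw [e1]
    have hA : ContDiff ℝ ∞ fun x => pd l ζ x * Real.smoothTransition (a * g x + b) :=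
      (cp hζ l).mul hS
    have hap : ContDiff ℝ ∞ fun x => a * pd l g x := contDiff_const.mul (cp hg l)
    have hB1 : ContDiff ℝ ∞ fun x => deriv Real.smoothTransition (a * g x + b) * (a * pd l g x) :=
      hS'.mul hap
    have hB : ContDiff ℝ ∞ fun x =>
        ζ x * (deriv Real.smoothTransition (a * g x + b) * (a * pd l g x)) := hζ.mul hB1
    have e2 : pd k (fun x => a * pd l g x) x = a * pd k (pd l g) x := by
      have := pd_aff (cp hg l) a 0 k x
      simpa using this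
    rw [padd hA hB, pmul (cp hζ l) hS, pd_comp hs hu, pd_aff hg, pmul hζ hB1, pmul hS' hap,
      pd_comp hd hu, pd_aff hg, e2]
    have b1 : |pd k (pd l ζ) x * Real.smoothTransition (a * g x + b)| ≤ M * 1 := by
      rw [abs_mul]
      exact mul_le_mul (z2 k l x) (s0 _) (abs_nonneg _) hM
    have b2 : |pd l ζ x * (deriv Real.smoothTransition (a * g x + b) * (a * pd k g x))| ≤
        M * (D * (R * M)) := by
      rw [abs_mul]
      exact mul_le_mul (z1 l x) (dp k x _) (abs_nonneg _) hM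
    have b3 : |pd k ζ x * (deriv Real.smoothTransition (a * g x + b) * (a * pd l g x))| ≤
        M * (D * (R * M)) := by
      rw [abs_mul]
      exact mul_le_mul (z1 k x) (dp l x _) (abs_nonneg _) hM
    have b4 : |deriv (deriv Real.smoothTransition) (a * g x + b) * (a * pd k g x) *
        (a * pd l g x)| ≤ D * (R * M) * (R * M) := by
      rw [abs_mul, abs_mul]
      exact mul_le_mul (mul_le_mul (s2 _) (ap k x) (abs_nonneg _) hD) (ap l x) (abs_nonneg _)
        (by positivity)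
    have b5 : |deriv Real.smoothTransition (a * g x + b) * (a * pd k (pd l g) x)| ≤
        D * (R * M) := by
      rw [abs_mul]
      refine mul_le_mul (s1 _) ?_ (abs_nonneg _) hD
      rw [abs_mul, abs_of_nonneg ha0]
      exact mul_le_mul ha (g2 k l x) (abs_nonneg _) (by linarith)
    have b6 : |ζ x * (deriv (deriv Real.smoothTransition) (a * g x + b) * (a * pd k g x) *
        (a * pd l g x) + deriv Real.smoothTransition (a * g x + b) * (a * pd k (pd l g) x))| ≤
        1 * (D * (R * M) * (R * M) + D * (R * M)) := by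
      rw [abs_mul]
      exact mul_le_mul (z0 x) ((abs_add_le _ _).trans (add_le_add b4 b5)) (abs_nonneg _)
        zero_le_one
    refine (abs_add_le _ _).trans ((add_le_add (abs_add_le _ _) (abs_add_le _ _)).trans ?_)
    have c1 : M * 1 ≤ M * R ^ 2 := mul_le_mul_of_nonneg_left hR1 hM
    have c2 : M * (D * M) * R ≤ M * (D * M) * R ^ 2 :=
      mul_le_mul_of_nonneg_left hR2 (by positivity)
    have c3 : D * M * R ≤ D * M * R ^ 2 := mul_le_mul_of_nonneg_left hR2 (by positivity)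
    calc _ ≤ M * 1 + M * (D * (R * M)) + (M * (D * (R * M)) +
          1 * (D * (R * M) * (R * M) + D * (R * M))) :=
          add_le_add (add_le_add b1 b2) (add_le_add b3 b6)
      _ = M * 1 + 2 * (M * (D * M) * R) + (D * M ^ 2 * R ^ 2 + D * M * R) := by ring
      _ ≤ M * R ^ 2 + 2 * (M * (D * M) * R ^ 2) + (D * M ^ 2 * R ^ 2 + D * M * R ^ 2) := by
          linarith
      _ = _ := by ring

/-- The gradient of the level function does not vanish. -/
theorem gx_gr (hn : 3 ≤ n) {σ : ℝ} (h0 : 0 < σ) (h1 : σ ≤ 1 / 10) : ∃ c₀ : ℝ, 0 < c₀ ∧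
    ∀ x ∈ Ac n (9 / 10) 20, c₀ ≤ ∑ i, pd i (gx n σ) x ^ 2 := by
  have hsub : Ac n (9 / 10) 20 ⊆ Ao n (1 / 2) 30 := fun x hx =>
    ⟨lt_of_lt_of_le (by norm_num) hx.1, lt_of_le_of_lt hx.2 (by norm_num)⟩
  have hc : ContinuousOn (fun x => ∑ i, pd i (gx n σ) x ^ 2) (Ac n (9 / 10) 20) := by
    refine continuousOn_finsetSum _ fun i _ => ContinuousOn.pow ?_ 2
    have h2 := (gx_on (n := n) σ (a := 1 / 2) (b := 30) (by norm_num)).continuousOn_fderiv_of_isOpen
      (HY.T3.isOpen_Ao _ _) (by simp)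
    exact (h2.mono hsub).clm_apply continuousOn_const
  rcases (Ac n (9 / 10) 20).eq_empty_or_nonempty with he | hne
  · refine ⟨1, one_pos, fun x hx => ?_⟩
    rw [he] at hx
    exact absurd hx (Set.notMem_empty x)
  obtain ⟨x₀, hx₀, hmin⟩ := (HY.T3.isCompact_Ac (n := n) (9 / 10) 20).exists_isMinOn hne hc
  refine ⟨_, ?_, fun x hx => hmin hx⟩
  -- positivity at `x₀`
  have hq : HY.sq x₀ ≠ 0 := by
    intro h
    have := hx₀.1
    rw [h, Real.sqrt_zero] at this
    linarith
  have hq0 : 0 < HY.sq x₀ := lt_of_le_of_ne (R2.H238.S3.P3.sq_nn x₀) (Ne.symm hq)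
  have hpos : 0 ≤ ∑ i, pd i (gx n σ) x₀ ^ 2 := Finset.sum_nonneg fun i _ => sq_nonneg _
  refine lt_of_le_of_ne hpos fun h => ?_
  have h2 : ∀ i, pd i (gx n σ) x₀ = 0 := by
    intro i
    have := (Finset.sum_eq_zero_iff_of_nonneg (fun i _ => sq_nonneg (pd i (gx n σ) x₀))).1 h.symm i
      (Finset.mem_univ i)
    exact pow_eq_zero_iff (by norm_num) |>.1 this
  have h3 : fderiv ℝ (gx n σ) x₀ = 0 := by
    refine ContinuousLinearMap.ext fun v => ?_
    have e : v = ∑ i, v i • (Pi.single i (1 : ℝ) : V n) := by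
      funext j
      simp [Finset.sum_apply, Pi.single_apply]
    rw [e, map_sum]
    simp only [map_smul]
    have h4 : ∀ i, fderiv ℝ (gx n σ) x₀ (Pi.single i 1) = 0 := h2
    simp only [h4, smul_zero, Finset.sum_const_zero]
    rfl
  obtain ⟨y₀, hy₀⟩ : ∃ y, y = iv x₀ := ⟨_, rfl⟩
  have hsy : HY.sq y₀ = 1 / HY.sq x₀ := by rw [hy₀]; exact R2.H238.S3.P3.sq_iv hq
  have hyq : HY.sq y₀ ≠ 0 := by rw [hsy]; positivity
  have hyE : y₀ ∈ Eb (0 : V n) (5 / 4) := by
    change HY.sq (y₀ - 0) < (5 / 4) ^ 2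
    rw [sub_zero, hsy, div_lt_iff₀ hq0]
    have h5 := hx₀.1
    have h6 := Real.sq_sqrt hq0.le
    nlinarith [Real.sqrt_nonneg (HY.sq x₀)]
  have h6 := (gy_lvl hn h0 h1).gr y₀ hyE
  have hiv : ∀ y : V n, HY.sq y ≠ 0 → iv (iv y) = y := by
    intro y hy
    funext i
    change iv y i / HY.sq (iv y) = y i
    rw [R2.H238.S3.P3.sq_iv hy]
    change y i / HY.sq y / (1 / HY.sq y) = y i
    field_simp
  have hev : gy n σ =ᶠ[𝓝 y₀] fun y => gx n σ (iv y) := by
    have hopen : IsOpen {y : V n | HY.sq y ≠ 0} :=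
      isOpen_ne_fun R2.H238.S3.P3.sq_cd.continuous continuous_const
    filter_upwards [hopen.mem_nhds hyq] with y hy
    change gy n σ y = gy n σ (iv (iv y))
    rw [hiv y hy]
  have hivx : iv y₀ = x₀ := by rw [hy₀, hiv x₀ hq]
  have h7 : HasFDerivAt (fun y => gx n σ (iv y)) ((fderiv ℝ (gx n σ) x₀).comp (fderiv ℝ iv y₀)) y₀ := by
    have a1 : HasFDerivAt (gx n σ) (fderiv ℝ (gx n σ) x₀) (iv y₀) := by
      rw [hivx]
      exact ((gx_cd σ hq).differentiableAt (by simp)).hasFDerivAt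
    exact a1.comp y₀ ((iv_cd hyq).differentiableAt (by simp)).hasFDerivAt
  have h8 : fderiv ℝ (gy n σ) y₀ = 0 := by
    rw [hev.fderiv_eq, h7.fderiv, h3]
    simp
  have h9 : ∑ i, pd i (gy n σ) y₀ ^ 2 = 0 := by
    refine Finset.sum_eq_zero fun i _ => ?_
    unfold pd
    rw [h8]
    simp
  linarith

end Vale.Agent.P088.S4.H870.P3N

end
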