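import Vale.Agent.P088.R2.H870.P3N.Ge1
import Vale.Agent.P088.R2.H870.XGE

/-!
# P088, stage 4, row P3N, the half of (GE): the data on the annulus
-/

open MeasureTheory Set
open scoped ContDiff Matrix Topology

noncomputable section

namespace Vale.Agent.P088.S4.H870.P3N

open Vale.Agent.P088.LR Vale.Agent.P088.LR.U Vale.Agent.P088.LR.H158
open Vale.Agent.P088.PJ
open Vale.Agent.P088.HY.T3 (Eb e0 Ao Ac iv isOpen_Ao isCompact_Ac mem_Eb0)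
open Vale.Agent.P088.HY.T4 (gx gy kk Oc Zq cg Lvl)
open Vale.Agent.P088.R2.H238.S3 (cp dfr pmul padd psub smx pd_loc ex_cut)
open Vale.Agent.P088.R2.H238.S3.P3 (cut_bd acut gx_cd gx_on Ao_ne gy_lvl gx_far cg_one cg_zero
  iv_cd gy_cd exFx)
open Vale.Agent.P088.PJ.H341 (cl_mono nq_zero nq_nonneg)

variable {n N : ℕ}

/-! ## Restriction -/

theorem Da_sub {k : ℕ} {δ : ℝ} {E E' : Set (V n)} {s : MF n} {P : MC n N} {G : Fin n → MC n N}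
    (h : Da k δ E s P G) (hE : E' ⊆ E) : Da k δ E' s P G where
  ss := h.ss
  sy := h.sy
  sP := h.sP
  hP := h.hP
  sG := h.sG
  hG := h.hG
  cs := h.cs
  cP := h.cP
  cG := h.cG
  dq := fun x hx => h.dq x (hE hx)
  pe := fun x hx => h.pe x (hE hx)

theorem RL_sub {k : ℕ} {δ : ℝ} {O O' K : Set (V n)} {j₀ : Fin N} {s₁ s₂ : MF n}
    {P₁ P₂ : MC n N} {G₁ G₂ β Y D : Fin n → MC n N}
    (h : RL k δ O K j₀ s₁ s₂ P₁ P₂ G₁ G₂ β Y D) (hO : IsOpen O') (hs : O' ⊆ O) :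
    RL k δ O' K j₀ s₁ s₂ P₁ P₂ G₁ G₂ β Y D where
  op := hO
  cl := h.cl
  d₁ := Da_sub h.d₁ (inter_subset_inter_left _ hs)
  d₂ := Da_sub h.d₂ (inter_subset_inter_left _ hs)
  sβ := h.sβ
  cβ := h.cβ
  eβ := fun i x hx => h.eβ i x ⟨hs hx.1, hx.2⟩
  LY := fun a x hx => h.LY a x (hs hx)
  os := fun x hx => h.os x (hs hx)
  oP := fun x hx => h.oP x (hs hx)
  oG := fun i x hx => h.oG i x (hs hx)
  oD := fun a x hx => h.oD a x (hs hx)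
  sY := h.sY
  sD := h.sD
  cY := h.cY
  cD := h.cD
  tD := fun a x hx => h.tD a x (hs hx)
  hY := fun a x hx => h.hY a x ⟨hs hx.1, hx.2⟩
  gi := fun a x hx => h.gi a x ⟨hs hx.1, hx.2⟩

theorem RLP_mono {k k' : ℕ} {ε ε' : ℝ} {O K : Set (V n)} {d : PD n N} (h : RLP k ε O K d)
    (hk : k' ≤ k) (hε : ε ≤ ε') : RLP k' ε' O K d where
  rl := H870.RL_mono h.rl hk hε
  ig := H870.IG_mono h.ig hk hε
  st := h.st
  it := h.it

theorem NrmN_mono {k k' : ℕ} {ε ε' : ℝ} {d : PD n N} {G : Set (V n)} (h : NrmN k ε d G)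
    (hk : k' ≤ k) (hε : ε ≤ ε') : NrmN k' ε' d G where
  oG := h.oG
  b1 := h.b1
  rp := RLP_mono h.rp hk hε
  of := h.of

/-! ## The matched set -/

section mat

variable {k : ℕ} {ε : ℝ} {d : PD n N} {G : Set (V n)} {x : V n}

theorem pdm_zero {O : Set (V n)} (hO : IsOpen O) {U : MC n N} (h : ∀ x ∈ O, U x = 0) (i : Fin n)
    (hx : x ∈ O) : pdm i U x = 0 := by
  ext a b
  have e4 : (fun y => U y a b) =ᶠ[𝓝 x] fun _ => (0 : ℂ) :=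
    Filter.eventually_of_mem (hO.mem_nhds hx) fun y hy => by
      change U y a b = 0
      rw [h y hy]; rfl
  change pd i (fun y => U y a b) x = 0
  unfold pd
  rw [e4.fderiv_eq]
  simp

theorem in_G (h : NrmN k ε d G) (hx : √(HY.sq x) < 1) : x ∈ Eb (0 : V n) 24 ∩ G :=
  ⟨(mem_Eb0 (by norm_num)).2 (by linarith), h.b1 ((mem_Eb0 one_pos).2 hx)⟩

theorem op_G (h : NrmN k ε d G) : IsOpen (Eb (0 : V n) 24 ∩ G) := h.rp.rl.op.inter h.oG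

theorem D_in (h : NrmN k ε d G) (a : Fin n) : ∀ x ∈ Eb (0 : V n) 24 ∩ G, d.D a x = 0 :=
  fun x hx => h.rp.rl.oD a x hx.1 fun h' => h' hx.2

theorem s_in (h : NrmN k ε d G) : ∀ x ∈ Eb (0 : V n) 24 ∩ G, d.s₂ x = d.s₁ x :=
  fun x hx => h.rp.rl.os x hx.1 fun h' => h' hx.2

theorem P_in (h : NrmN k ε d G) : ∀ x ∈ Eb (0 : V n) 24 ∩ G, d.P₂ x = d.P₁ x :=
  fun x hx => h.rp.rl.oP x hx.1 fun h' => h' hx.2

theorem U0_in (h : NrmN k ε d G) (hx : x ∈ Eb (0 : V n) 24 ∩ G) :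
    U0 d.s₁ d.s₂ d.P₁ d.P₂ d.D x = 0 := by
  unfold U0 hh d0 d1
  rw [s_in h x hx, P_in h x hx]
  have h1 : ∀ a, d.D a x = 0 := fun a => D_in h a x hx
  have h2 : ∀ a i, pdm i (d.D a) x = 0 := fun a i => pdm_zero (op_G h) (D_in h a) i hx
  simp [h1, h2, nq_zero]

theorem VR_in (h : NrmN k ε d G) (hx : x ∈ Eb (0 : V n) 24 ∩ G) (j b : Fin n) :
    VR d.s₁ d.s₂ d.τ d.P₁ d.P₂ d.G₂ d.β d.Γ d.D j b x = 0 := by
  have h1 : ∀ b, ∀ x ∈ Eb (0 : V n) 24 ∩ G, Db d.P₂ d.Γ d.D b x = 0 := by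
    intro b x hx
    unfold Db
    have : ∀ a, d.D a x = 0 := fun a => D_in h a x hx
    simp [this]
  have h2 : ∀ i, pdm i (fun y => (d.s₂ y i j : ℂ) • Db d.P₂ d.Γ d.D b y) x = 0 := fun i =>
    pdm_zero (op_G h) (fun y hy => by rw [h1 b y hy, smul_zero]) i hx
  have h3 : Zt d.s₁ d.s₂ d.P₁ d.P₂ j b x = 0 := by
    unfold Zt TP
    rw [s_in h x hx, P_in h x hx, sub_self]
  unfold VR
  rw [h3]
  simp only [h2, h1 _ x hx]
  simp

theorem VD_in (h : NrmN k ε d G) (hx : x ∈ Eb (0 : V n) 24 ∩ G) : tn (tfC d.s₁ (VD d)) x = 0 := by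
  have h1 : ∀ i j, VD d i j x = 0 := by
    intro i j
    unfold VD VS
    rw [VR_in h hx, VR_in h hx]
    simp
  unfold tn
  refine Finset.sum_eq_zero fun i _ => Finset.sum_eq_zero fun j _ => ?_
  rw [PJ.H341.tfC_off h1, nq_zero]

end mat

/-! ## The weight -/

/-- The fixed objects. -/
structure Fg (n : ℕ) (σ : ℝ) (ζ χ₁ χ₂ g : V n → ℝ) (Oζ : Set (V n)) (D M c₀ : ℝ) : Prop where
  F : R2.H238.S3.P3.Fx n ζ χ₁ χ₂ Oζ M
  gs : ContDiff ℝ ∞ g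
  ge : ∀ x ∈ Ac n (4 / 5) 22, g x = gx n σ x
  D0 : 0 ≤ D
  z1 : ∀ k x, |pd k ζ x| ≤ M
  z2 : ∀ k l x, |pd k (pd l ζ) x| ≤ M
  g1 : ∀ k x, |pd k g x| ≤ M
  g2 : ∀ k l x, |pd k (pd l g) x| ≤ M
  s1 : ∀ t, |deriv Real.smoothTransition t| ≤ D
  s2 : ∀ t, |deriv (deriv Real.smoothTransition) t| ≤ D
  c0 : 0 < c₀
  gr : ∀ x ∈ Ac n (9 / 10) 20, c₀ ≤ ∑ i, pd i (gx n σ) x ^ 2

theorem Fx_mono {ζ χ₁ χ₂ : V n → ℝ} {Oζ : Set (V n)} {D D' : ℝ} (h : R2.H238.S3.P3.Fx n ζ χ₁ χ₂ Oζ D)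
    (hD : D ≤ D') : R2.H238.S3.P3.Fx n ζ χ₁ χ₂ Oζ D' where
  z1 := h.z1
  z2 := h.z2
  z3 := h.z3
  z4 := h.z4
  z5 := h.z5
  z6 := h.z6
  z7 := h.z7
  u1 := h.u1
  u3 := h.u3
  u6 := h.u6
  u7 := h.u7
  v1 := h.v1
  v2 := h.v2
  v3 := h.v3
  v6 := h.v6
  v7 := h.v7
  d1 := fun k x => (h.d1 k x).trans hD
  d2 := fun k x => (h.d2 k x).trans hD
  d0 := h.d0.trans hD

theorem exFg (hn : 3 ≤ n) {σ : ℝ} (h0 : 0 < σ) (h1 : σ ≤ 1 / 10) :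
    ∃ (ζ χ₁ χ₂ g : V n → ℝ) (Oζ : Set (V n)) (D M c₀ : ℝ), Fg n σ ζ χ₁ χ₂ g Oζ D M c₀ := by
  obtain ⟨ζ, χ₁, χ₂, Oζ, D₁, F⟩ := exFx n
  obtain ⟨ξ, Oξ, w1, w2, w3, w4, w5, w6, w7⟩ := acut (n := n) (a := 4 / 5) (b := 22)
    (c := 1 / 2) (d := 30) (by norm_num) (by norm_num)
  obtain ⟨D, hD0, s1, s2⟩ := st_d2
  obtain ⟨c₀, hc₀, gr⟩ := gx_gr hn h0 h1
  have hgs : ContDiff ℝ ∞ fun x => ξ x * gx n σ x :=
    smx (isOpen_Ao (1 / 2) 30) w1 w3 (gx_on σ (by norm_num))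
  have hgc : HasCompactSupport fun x => ξ x * gx n σ x := w2.mul_right
  obtain ⟨M₁, hM₁, a1, a2⟩ := bd2 F.z1 F.z2
  obtain ⟨M₂, hM₂, b1, b2⟩ := bd2 hgs hgc
  have hD₁ := F.d0
  exact ⟨ζ, χ₁, χ₂, fun x => ξ x * gx n σ x, Oζ, D, D₁ + M₁ + M₂, c₀,
    { F := Fx_mono F (by linarith)
      gs := hgs
      ge := fun x hx => by
        change ξ x * gx n σ x = gx n σ x
        rw [w6 x (w5 hx), one_mul]
      D0 := hD0
      z1 := fun k x => (a1 k x).trans (by linarith)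
      z2 := fun k l x => (a2 k l x).trans (by linarith)
      g1 := fun k x => (b1 k x).trans (by linarith)
      g2 := fun k l x => (b2 k l x).trans (by linarith)
      s1 := s1
      s2 := s2
      c0 := hc₀
      gr := gr }⟩

theorem O_sub4 : Ao n (9 / 10) 20 ⊆ Ac n (4 / 5) 22 := fun _ hx =>
  ⟨le_trans (by norm_num) hx.1.le, hx.2.le.trans (by norm_num)⟩

theorem O_sub24 : Ao n (9 / 10) 20 ⊆ Ao n (4 / 5) 24 := fun _ hx =>
  ⟨lt_trans (by norm_num) hx.1, lt_trans hx.2 (by norm_num)⟩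

theorem O_subE : Ao n (9 / 10) 20 ⊆ Eb (0 : V n) 24 := fun _ hx =>
  (mem_Eb0 (by norm_num)).2 (lt_trans hx.2 (by norm_num))

section fix

variable {σ : ℝ} {ζ χ₁ χ₂ g : V n → ℝ} {Oζ : Set (V n)} {D M c₀ : ℝ}

theorem Fg.wx (h : Fg n σ ζ χ₁ χ₂ g Oζ D M c₀) : WX (Ao n (9 / 10) 20) (M + 1) c₀ g where
  gs := h.gs
  g1 := fun x _ i => (h.g1 i x).trans (by linarith)
  g2 := fun x _ i j => (h.g2 i j x).trans (by linarith)
  gr := fun x hx => by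
    have h1 : ∀ i, pd i g x = pd i (gx n σ) x := fun i =>
      pd_loc (isOpen_Ao (9 / 10) 20) (fun y hy => h.ge y (O_sub4 hy)) hx i
    simp only [h1]
    exact h.gr x ⟨hx.1.le, hx.2.le⟩

/-- Solvability. -/
theorem sld {s : MF n} {ρ κ : ℝ} (hgs : Continuous g)
    (hge : ∀ x ∈ Ac n (4 / 5) 22, g x = gx n σ x)
    (h : SlC (Ao n (9 / 10) 20) s (fun x => gy n σ (iv x)) ρ κ) :
    SlD (Ao n (9 / 10) 20) s g ρ κ := by
  intro F hF hFc hFO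
  obtain ⟨O, hO⟩ : ∃ O : Set (V n), O = Ao n (9 / 10) 20 := ⟨_, rfl⟩
  rw [← hO] at h hFO ⊢
  have hOo : IsOpen O := by rw [hO]; exact isOpen_Ao _ _
  have e0 : ∀ x ∈ O, gy n σ (iv x) = g x := fun x hx => (hge x (O_sub4 (by rwa [← hO]))).symm
  have hcon : Integrable fun x => F x ^ 2 * Real.exp (-(2 * ρ * g x)) := by
    refine Continuous.integrable_of_hasCompactSupport ?_ ?_
    · exact (hF.continuous.pow 2).mul (continuous_const.mul hgs).neg.rexp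
    · have h3 : HasCompactSupport fun x => F x ^ 2 :=
        hFc.comp_left (g := fun t : ℝ => t ^ 2) (by norm_num)
      exact h3.mul_right
  obtain ⟨w, w1, w2, w3, w4⟩ := h F hF.contDiffOn (by
    refine (hcon.integrableOn (s := O)).congr_fun (fun x hx => ?_) hOo.measurableSet
    change F x ^ 2 * Real.exp (-(2 * ρ * g x)) = F x ^ 2 * Real.exp (-(2 * ρ * gy n σ (iv x)))
    rw [e0 x hx])
  refine ⟨w, w1, w2, ?_, ?_⟩
  · refine w3.congr_fun (fun x hx => ?_) hOo.measurableSet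
    change w x ^ 2 * Real.exp (-(2 * ρ * gy n σ (iv x))) = w x ^ 2 * Real.exp (-(2 * ρ * g x))
    rw [e0 x hx]
  · have e1 : ∫ x in O, w x ^ 2 * Real.exp (-(2 * ρ * gy n σ (iv x))) =
        ∫ x in O, w x ^ 2 * Real.exp (-(2 * ρ * g x)) :=
      setIntegral_congr_fun hOo.measurableSet fun x hx => by
        change w x ^ 2 * Real.exp (-(2 * ρ * gy n σ (iv x))) = w x ^ 2 * Real.exp (-(2 * ρ * g x))
        rw [e0 x hx]
    have e2 : ∫ x in O, F x ^ 2 * Real.exp (-(2 * ρ * gy n σ (iv x))) =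
        ∫ x in O, F x ^ 2 * Real.exp (-(2 * ρ * g x)) :=
      setIntegral_congr_fun hOo.measurableSet fun x hx => by
        change F x ^ 2 * Real.exp (-(2 * ρ * gy n σ (iv x))) = F x ^ 2 * Real.exp (-(2 * ρ * g x))
        rw [e0 x hx]
    rw [← e1, ← e2]
    exact w4

end fix

end Vale.Agent.P088.S4.H870.P3N

end
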