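import Vale.Agent.P088.R2.H870.P3N.Ge2

/-!
# P088, stage 4, row P3N, the half of (GE)
-/

open MeasureTheory Set
open scoped ContDiff Matrix Topology

noncomputable section

namespace Vale.Agent.P088.S4.H870.P3N

open Vale.Agent.P088.LR Vale.Agent.P088.LR.U Vale.Agent.P088.LR.H158
open Vale.Agent.P088.PJ
open Vale.Agent.P088.HY.T3 (Eb e0 Ao Ac iv isOpen_Ao isCompact_Ac mem_Eb0)
open Vale.Agent.P088.HY.T4 (gx gy kk Oc Zq cg Lvl)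
open Vale.Agent.P088.R2.H238.S3 (cp dfr pmul padd psub smx pd_loc ex_cut)
open Vale.Agent.P088.R2.H238.S3.P3 (cut_bd acut gx_cd gx_on Ao_ne gy_lvl gx_far cg_one cg_zero
  iv_cd gy_cd exFx cg_cd cg_le far_ar)
open Vale.Agent.P088.PJ.H341 (cl_mono nq_zero nq_nonneg)

variable {n N : ℕ}

section fix

variable {σ : ℝ} {ζ χ₁ χ₂ g : V n → ℝ} {Oζ : Set (V n)} {D M c₀ R kap Gs ρ : ℝ}

/-- The cut-off. -/
def chi (n : ℕ) (σ R kap Gs : ℝ) (ζ : V n → ℝ) (x : V n) : ℝ := ζ x * cg n σ R kap Gs x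

/-- The set where the cut-off varies. -/
def Bs (n : ℕ) (σ R kap Gs : ℝ) (ζ g : V n → ℝ) : Set (V n) :=
  tsupport (chi n σ R kap Gs ζ) ∩ ({x | √(HY.sq x) < 1} ∪
    {x | R * (g x - Gs) ≤ -(Real.log kap / 4)})

theorem chi_ts : tsupport (chi n σ R kap Gs ζ) ⊆ tsupport ζ := tsupport_mul_subset_left

theorem z_in (h : Fg n σ ζ χ₁ χ₂ g Oζ D M c₀) {x : V n} (hx : x ∈ tsupport ζ) :
    x ∈ Ac n (4 / 5) 22 := by
  have := h.F.z3 hx
  exact ⟨le_trans (by norm_num) this.1.le, this.2.le.trans (by norm_num)⟩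

theorem chi_eq (h : Fg n σ ζ χ₁ χ₂ g Oζ D M c₀) : chi n σ R kap Gs ζ = fun x =>
    ζ x * Real.smoothTransition (R / (Real.log kap / 4) * g x +
      (-(R * Gs) + Real.log kap / 2) / (Real.log kap / 4)) := by
  funext x
  unfold chi
  by_cases hx : x ∈ tsupport ζ
  · unfold cg
    rw [← h.ge x (z_in h hx)]
    congr 2
    ring
  · rw [image_eq_zero_of_notMem_tsupport hx]
    ring

theorem chi_sm (h : Fg n σ ζ χ₁ χ₂ g Oζ D M c₀) : ContDiff ℝ ∞ (chi n σ R kap Gs ζ) := by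
  rw [chi_eq h]
  have hs : ContDiff ℝ ∞ Real.smoothTransition := Real.smoothTransition.contDiff
  exact h.F.z1.mul (hs.comp ((contDiff_const.mul h.gs).add contDiff_const))

theorem chi_cs (h : Fg n σ ζ χ₁ χ₂ g Oζ D M c₀) : HasCompactSupport (chi n σ R kap Gs ζ) :=
  h.F.z2.of_isClosed_subset (isClosed_tsupport _) chi_ts

theorem chi_A (h : Fg n σ ζ χ₁ χ₂ g Oζ D M c₀) :
    tsupport (chi n σ R kap Gs ζ) ⊆ Ao n (98 / 100) 13 := chi_ts.trans h.F.z3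

theorem chi_one (h : Fg n σ ζ χ₁ χ₂ g Oζ D M c₀) {x : V n} (hx : x ∈ Oζ) :
    chi n σ R kap Gs ζ x = cg n σ R kap Gs x := by
  unfold chi
  rw [h.F.z6 x hx, one_mul]

/-- Far away the cut-off vanishes. -/
theorem chi_far (hn : 1 ≤ n) (h0 : 0 < σ) (h1 : σ ≤ 1 / 10) (hR : 100 ≤ R)
    (hL : 4 ≤ Real.log kap) (hL2 : Real.log kap ≤ R / 4) (hGs : -(1 / 4) ≤ Gs) {x : V n}
    (hx : 12 ≤ √(HY.sq x)) : R * (gx n σ x - Gs) ≤ -(Real.log kap / 2) :=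
  far_ar hR (gx_far hn h0 h1 hx) hGs hL2

theorem chi_ts12 (h : Fg n σ ζ χ₁ χ₂ g Oζ D M c₀) (hn : 1 ≤ n) (h0 : 0 < σ) (h1 : σ ≤ 1 / 10)
    (hR : 100 ≤ R) (hL : 4 ≤ Real.log kap) (hL2 : Real.log kap ≤ R / 4) (hGs : -(1 / 4) ≤ Gs)
    {x : V n} (hx : x ∈ tsupport (chi n σ R kap Gs ζ)) : √(HY.sq x) ≤ 12 := by
  have hcl : IsClosed {x : V n | √(HY.sq x) ≤ 12} :=
    isClosed_le (R2.H238.S3.P3.sq_cd.continuous.sqrt) continuous_const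
  have hs : Function.support (chi n σ R kap Gs ζ) ⊆ {x : V n | √(HY.sq x) ≤ 12} := by
    intro y hy
    by_contra h'
    have h2 : 12 ≤ √(HY.sq y) := le_of_lt (not_le.1 h')
    refine hy ?_
    unfold chi
    rw [cg_zero (by linarith) (chi_far hn h0 h1 hR hL hL2 hGs h2), mul_zero]
  exact closure_minimal hs hcl hx

/-- Off `Bs` the cut-off is locally constant. -/
theorem chi_zB (h : Fg n σ ζ χ₁ χ₂ g Oζ D M c₀) (hn : 1 ≤ n) (h0 : 0 < σ) (h1 : σ ≤ 1 / 10)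
    (hR : 100 ≤ R) (hL : 4 ≤ Real.log kap) (hL2 : Real.log kap ≤ R / 4) (hGs : -(1 / 4) ≤ Gs)
    (x : V n) (hx : x ∉ Bs n σ R kap Gs ζ g) (k : Fin n) :
    pd k (chi n σ R kap Gs ζ) x = 0 ∧ ∀ l, pd l (pd k (chi n σ R kap Gs ζ)) x = 0 := by
  by_cases hx' : x ∈ tsupport (chi n σ R kap Gs ζ)
  · have hx2 : ¬(√(HY.sq x) < 1) ∧ ¬(R * (g x - Gs) ≤ -(Real.log kap / 4)) := by
      constructor
      · exact fun h' => hx ⟨hx', Or.inl h'⟩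
      · exact fun h' => hx ⟨hx', Or.inr h'⟩
    have a1 : 1 ≤ √(HY.sq x) := not_lt.1 hx2.1
    have a2 : -(Real.log kap / 4) < R * (g x - Gs) := not_le.1 hx2.2
    have a3 := chi_ts12 h hn h0 h1 hR hL hL2 hGs hx'
    have a4 : x ∈ Oζ := h.F.z5 ⟨le_trans (by norm_num) a1, a3⟩
    set U : Set (V n) := Oζ ∩ {x | -(Real.log kap / 4) < R * (g x - Gs)} with hU
    have hUo : IsOpen U := h.F.z4.inter (isOpen_lt continuous_const
      (continuous_const.mul (h.gs.continuous.sub continuous_const)))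
    have hxU : x ∈ U := ⟨a4, a2⟩
    have one : ∀ y ∈ U, chi n σ R kap Gs ζ y = 1 := by
      intro y hy
      have b1 : y ∈ tsupport ζ := subset_tsupport _ (by
        rw [Function.mem_support, h.F.z6 y hy.1]; exact one_ne_zero)
      rw [chi_one h hy.1]
      refine cg_one (by linarith) ?_
      rw [← h.ge y (z_in h b1)]
      exact le_of_lt hy.2
    have z1 : ∀ k, ∀ y ∈ U, pd k (chi n σ R kap Gs ζ) y = 0 := by
      intro k y hy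
      rw [pd_loc hUo (g := fun _ => 1) one hy k]
      unfold pd
      simp
    refine ⟨z1 k x hxU, fun l => ?_⟩
    rw [pd_loc hUo (g := fun _ => 0) (z1 k) hxU l]
    unfold pd
    simp
  · refine ⟨pd_tsupport hx' k, fun l => pd_tsupport (f := pd k (chi n σ R kap Gs ζ)) ?_ l⟩
    intro h'
    refine hx' (closure_minimal (fun y hy => ?_) (isClosed_tsupport _) h')
    by_contra hy'
    exact hy (pd_tsupport hy' k)

/-- The cut-offs. -/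
theorem cc_of (h : Fg n σ ζ χ₁ χ₂ g Oζ D M c₀) (hn : 1 ≤ n) (h0 : 0 < σ) (h1 : σ ≤ 1 / 10)
    (hR : 100 ≤ R) (hL : 4 ≤ Real.log kap) (hL2 : Real.log kap ≤ R / 4) (hGs : -(1 / 4) ≤ Gs)
    (hρM : M ≤ ρ) (hρ1 : (M + D * M) * R ≤ ρ)
    (hρ2 : (M + 2 * (M * (D * M)) + (D * M ^ 2 + D * M)) * R ^ 2 ≤ ρ ^ 2) :
    CC (Ao n (9 / 10) 20) (Bs n σ R kap Gs ζ g) ρ (chi n σ R kap Gs ζ) χ₁ χ₂ := by
  have hχA := chi_A (R := R) (kap := kap) (Gs := Gs) h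
  have hM : 0 ≤ M := h.F.d0
  have hL0 : 0 < Real.log kap := by linarith
  obtain ⟨b1, b2⟩ := chi_bd (a := R / (Real.log kap / 4))
    (b := (-(R * Gs) + Real.log kap / 2) / (Real.log kap / 4)) (R := R) h.F.z1 h.gs h.D0 hM
    (by linarith) (by positivity) (by
      rw [div_le_iff₀ (by linarith)]
      nlinarith) (fun x => by rw [abs_of_nonneg (h.F.z7 x).1]; exact (h.F.z7 x).2)
    h.z1 h.z2 h.g1 h.g2 h.s1 h.s2
  rw [← chi_eq h] at b1 b2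
  exact
    { s0 := chi_sm h
      s1 := h.F.u1
      s2 := h.F.v1
      c2 := h.F.v2
      o2 := fun x hx => ⟨lt_trans (by norm_num) (h.F.v3 hx).1, lt_trans (h.F.v3 hx).2 (by norm_num)⟩
      i1 := fun x hx => h.F.u6 x ⟨(hχA hx).1.le, (hχA hx).2.le⟩
      i2 := fun x hx => h.F.v6 x ⟨(h.F.u3 hx).1.le, (h.F.u3 hx).2.le⟩
      b0 := fun x => by
        unfold chi
        rw [abs_mul, abs_of_nonneg (h.F.z7 x).1, abs_of_nonneg (cg_le x).1]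
        exact mul_le_one₀ (h.F.z7 x).2 (cg_le x).1 (cg_le x).2
      b1 := h.F.u7
      b2 := h.F.v7
      d0 := fun k x => (b1 k x).trans hρ1
      dd := fun k l x => (b2 k l x).trans hρ2
      d1 := fun k x => (h.F.d1 k x).trans hρM
      d2 := fun k x => (h.F.d2 k x).trans hρM
      mB := by
        refine (isClosed_tsupport _).measurableSet.inter (MeasurableSet.union ?_ ?_)
        · exact measurableSet_lt (R2.H238.S3.P3.sq_cd.continuous.sqrt).measurable measurable_const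
        · exact measurableSet_le (continuous_const.mul
            (h.gs.continuous.sub continuous_const)).measurable measurable_const
      bB := inter_subset_left
      zB := chi_zB h hn h0 h1 hR hL hL2 hGs }

theorem Bs_in (h : Fg n σ ζ χ₁ χ₂ g Oζ D M c₀) (hn : 1 ≤ n) (h0 : 0 < σ) (h1 : σ ≤ 1 / 10)
    (hR : 100 ≤ R) (hL : 4 ≤ Real.log kap) (hL2 : Real.log kap ≤ R / 4) (hGs : -(1 / 4) ≤ Gs)
    (x : V n) (hx : x ∈ Bs n σ R kap Gs ζ g) :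
    √(HY.sq x) < 1 ∨ (x ∈ Ac n 1 12 ∧ R * (gx n σ x - Gs) ≤ -(Real.log kap / 4)) := by
  by_cases h' : √(HY.sq x) < 1
  · exact Or.inl h'
  · refine Or.inr ⟨⟨not_lt.1 h', chi_ts12 h hn h0 h1 hR hL hL2 hGs hx.1⟩, ?_⟩
    rw [← h.ge x (z_in h (chi_ts hx.1))]
    rcases hx.2 with h2 | h2
    · exact absurd h2 h'
    · exact h2

/-! ## The weighted integrals -/

/-- The exponential. -/
theorem ex_eq (h : Fg n σ ζ χ₁ χ₂ g Oζ D M c₀) {x : V n} (hx : x ∈ Ac n (4 / 5) 22) :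
    Real.exp (-(2 * ρ * Gs)) * Real.exp (2 * ρ * g x) = Real.exp (2 * (ρ * (gx n σ x - Gs))) := by
  rw [← Real.exp_add, h.ge x hx]
  congr 1
  ring

theorem wI_eq (h : Fg n σ ζ χ₁ χ₂ g Oζ D M c₀) (f : V n → ℝ) :
    ∫ x, chi n σ R kap Gs ζ x ^ 2 * Real.exp (2 * (ρ * (gx n σ x - Gs))) * f x =
      Real.exp (-(2 * ρ * Gs)) * wI (chi n σ R kap Gs ζ) g ρ f := by
  unfold wI
  rw [← integral_const_mul]
  refine integral_congr_ae (Filter.Eventually.of_forall fun x => ?_)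
  change chi n σ R kap Gs ζ x ^ 2 * Real.exp (2 * (ρ * (gx n σ x - Gs))) * f x =
    Real.exp (-(2 * ρ * Gs)) * (chi n σ R kap Gs ζ x ^ 2 * Real.exp (2 * ρ * g x) * f x)
  by_cases hx : x ∈ tsupport ζ
  · rw [← ex_eq h (z_in h hx)]
    ring
  · unfold chi
    rw [image_eq_zero_of_notMem_tsupport hx]
    ring

theorem wB_eq (h : Fg n σ ζ χ₁ χ₂ g Oζ D M c₀) (hm : MeasurableSet (Bs n σ R kap Gs ζ g))
    (f : V n → ℝ) :
    ∫ x in Bs n σ R kap Gs ζ g, Real.exp (2 * (ρ * (gx n σ x - Gs))) * f x =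
      Real.exp (-(2 * ρ * Gs)) * wB (Bs n σ R kap Gs ζ g) g ρ f := by
  unfold wB
  rw [← integral_const_mul]
  refine setIntegral_congr_fun hm fun x hx => ?_
  change Real.exp (2 * (ρ * (gx n σ x - Gs))) * f x =
    Real.exp (-(2 * ρ * Gs)) * (Real.exp (2 * ρ * g x) * f x)
  rw [← ex_eq h (z_in h (chi_ts hx.1))]
  ring

theorem It_eq (h : Fg n σ ζ χ₁ χ₂ g Oζ D M c₀) {k : ℕ} {ε ν : ℝ} {d : PD n N} {G : Set (V n)}
    (hd : NrmN k ε d G) (hn : 1 ≤ n) (h0 : 0 < σ) (h1 : σ ≤ 1 / 10)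
    (hR : 100 ≤ R) (hL : 4 ≤ Real.log kap) (hL2 : Real.log kap ≤ R / 4) (hGs : -(1 / 4) ≤ Gs) :
    ∫ x, chi n σ R kap Gs ζ x ^ 2 * Real.exp (2 * (ν * R * (gx n σ x - Gs))) *
      tn (tfC d.s₁ (VD d)) x = ItN d σ ν R kap Gs := by
  unfold ItN
  rw [← setIntegral_eq_integral_of_forall_compl_eq_zero (s := Ac n (99 / 100) 12)]
  · refine setIntegral_congr_fun (HY.T3.isClosed_Ac _ _).measurableSet fun x hx => ?_
    change chi n σ R kap Gs ζ x ^ 2 * Real.exp (2 * (ν * R * (gx n σ x - Gs))) *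
      tn (tfC d.s₁ (VD d)) x = cg n σ R kap Gs x ^ 2 * tn (tfC d.s₁ (VD d)) x *
        Real.exp (2 * (ν * R * (gx n σ x - Gs)))
    rw [chi_one h (h.F.z5 hx)]
    ring
  · intro x hx
    by_cases h2 : √(HY.sq x) < 1
    · rw [VD_in hd (in_G hd h2), mul_zero]
    · have h3 : ¬√(HY.sq x) ≤ 12 := fun h' => hx ⟨le_trans (by norm_num) (not_lt.1 h2), h'⟩
      have h4 : x ∉ tsupport (chi n σ R kap Gs ζ) := fun h' =>
        h3 (chi_ts12 h hn h0 h1 hR hL hL2 hGs h')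
      rw [image_eq_zero_of_notMem_tsupport h4]
      ring

end fix

/-- The estimate (GE) with the cut-off in depth. -/
theorem geN (hGE : RowXGE) (hP : RowP2R) {n N : ℕ} (hn : 3 ≤ n) (hN : 1 ≤ N) {σ : ℝ} (h0 : 0 < σ)
    (h1 : σ ≤ 1 / 10) : ∃ (N₀ : ℝ) (K : ℕ) (ε C R₀ : ℝ), 1 ≤ N₀ ∧ 0 < ε ∧ 0 < C ∧
    ∀ ν : ℝ, N₀ ≤ ν → ∀ (d : PD n N) (G : Set (V n)), NrmN K ε d G → ∀ R kap Gs : ℝ,
    R₀ ≤ R → 100 ≤ R → 4 ≤ Real.log kap → Real.log kap ≤ R / 4 → -(1 / 4) ≤ Gs →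
    ∃ (χ : V n → ℝ) (B : Set (V n)), ContDiff ℝ ∞ χ ∧ HasCompactSupport χ ∧
      tsupport χ ⊆ Ao n (98 / 100) 13 ∧ (∀ x ∈ Ac n (99 / 100) 12, χ x = cg n σ R kap Gs x) ∧
      MeasurableSet B ∧ B ⊆ tsupport χ ∧
      (∀ x ∈ B, √(HY.sq x) < 1 ∨ (x ∈ Ac n 1 12 ∧ R * (gx n σ x - Gs) ≤ -(Real.log kap / 4))) ∧
      ∫ x, χ x ^ 2 * Real.exp (2 * (ν * R * (gx n σ x - Gs))) * U0 d.s₁ d.s₂ d.P₁ d.P₂ d.D x ≤
        C * (ν * R) * ItN d σ ν R kap Gs + C * (ν * R) ^ 6 *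
          ∫ x in B, Real.exp (2 * (ν * R * (gx n σ x - Gs))) * U0 d.s₁ d.s₂ d.P₁ d.P₂ d.D x := by
  obtain ⟨ζ, χ₁, χ₂, g, Oζ, D, M, c₀, F⟩ := exFg hn h0 h1
  have hM : 0 ≤ M := F.F.d0
  have hD : 0 ≤ D := F.D0
  obtain ⟨K₁, ε₁, C₁, ρ₁, hε₁, hC₁, P2⟩ := hP n N hn hN 2 σ (1 / 4) (by norm_num) h0 (by norm_num)
  obtain ⟨K₂, C₂, ε₂, ρ₂, hC₂, hε₂, hρ₂, GE⟩ := hGE n N hn hN (M + 1) c₀ C₁ (by linarith) F.c0
    (by linarith)
  set A₁ : ℝ := M + D * M with hA₁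
  set A₂ : ℝ := M + 2 * (M * (D * M)) + (D * M ^ 2 + D * M) with hA₂
  have hA₁0 : 0 ≤ A₁ := by positivity
  have hA₂0 : 0 ≤ A₂ := by positivity
  refine ⟨1 + M + A₁ + A₂, max K₁ K₂, min ε₁ ε₂, C₂, |ρ₁| + ρ₂, by linarith, lt_min hε₁ hε₂, hC₂,
    ?_⟩
  intro ν hν d G hd R kap Gs hR0 hR hL hL2 hGs
  have hn1 : 1 ≤ n := by omega
  have hR1 : 1 ≤ R := by linarith
  have hν1 : 1 ≤ ν := by linarith
  obtain ⟨ρ, hρ⟩ : ∃ r : ℝ, r = ν * R := ⟨_, rfl⟩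
  have hρR : R ≤ ρ := by rw [hρ]; nlinarith
  have hρν : ν ≤ ρ := by rw [hρ]; nlinarith
  have r1 : ρ₁ ≤ ρ := by
    have := le_abs_self ρ₁
    linarith
  have r2 : ρ₂ ≤ ρ := by
    have := abs_nonneg ρ₁
    linarith
  have r3 : 1 ≤ ρ := by linarith
  have c1 : A₁ * R ≤ ρ := by
    rw [hρ]
    exact mul_le_mul_of_nonneg_right (by linarith) (by linarith)
  have c2 : A₂ * R ^ 2 ≤ ρ ^ 2 := by
    rw [hρ, mul_pow]
    refine mul_le_mul_of_nonneg_right ?_ (by positivity)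
    nlinarith
  have hcc := cc_of (R := R) (kap := kap) (Gs := Gs) (ρ := ρ) F hn1 h0 h1 hR hL hL2 hGs
    (by linarith) c1 c2
  have d1 := NrmN_mono hd (le_max_left K₁ K₂) (min_le_left ε₁ ε₂)
  have d2 := NrmN_mono hd (le_max_right K₁ K₂) (min_le_right ε₁ ε₂)
  obtain ⟨-, sl1, sl2⟩ := P2 d G d1 (gy n σ) (gy_lvl hn h0 h1) (Ao n (9 / 10) 20) (isOpen_Ao _ _)
    O_sub24 ρ r1 r3
  have ge := GE (Ao n (9 / 10) 20) Gᶜ d.j₀ d.s₁ d.s₂ d.P₁ d.P₂ d.G₁ d.G₂ d.β d.Y d.D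
    (RL_sub d2.rp.rl (isOpen_Ao _ _) O_subE) d.Γ d2.rp.ig d.τ d2.rp.st d2.rp.it g F.wx ρ r2
    (sld F.gs.continuous F.ge sl1) (sld F.gs.continuous F.ge sl2) _ _ _ _ hcc
  refine ⟨chi n σ R kap Gs ζ, Bs n σ R kap Gs ζ g, hcc.s0, cc_cs hcc, chi_A F,
    fun x hx => chi_one F (F.F.z5 hx), hcc.mB, hcc.bB, Bs_in F hn1 h0 h1 hR hL hL2 hGs, ?_⟩
  have e1 := wI_eq (R := R) (kap := kap) (Gs := Gs) (ρ := ν * R) F
    (U0 d.s₁ d.s₂ d.P₁ d.P₂ d.D)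
  have e2 := wB_eq (R := R) (kap := kap) (Gs := Gs) (ρ := ν * R) F hcc.mB
    (U0 d.s₁ d.s₂ d.P₁ d.P₂ d.D)
  have e3 := It_eq (R := R) (kap := kap) (Gs := Gs) (ν := ν) F hd hn1 h0 h1 hR hL hL2 hGs
  have e4 := wI_eq (R := R) (kap := kap) (Gs := Gs) (ρ := ν * R) F (tn (tfC d.s₁ (VD d)))
  rw [e1, e2, ← e3, e4, ← hρ]
  have hgc : Continuous g := F.gs.continuous
  have hχc : Continuous (chi n σ R kap Gs ζ) := hcc.s0.continuous
  have s1 := d2.rp.rl.d₁.ss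
  have s2 := d2.rp.rl.d₂.ss
  have p1 := d2.rp.rl.d₁.sP
  have p2 := d2.rp.rl.d₂.sP
  have hDs := d2.rp.rl.sD
  have cU := U0_cont (D := d.D) s1 s2 p1 p2 hDs
  have cA : Continuous fun x => hh d.s₁ d.s₂ x + nq (d.P₂ x - d.P₁ x) + S4.d1 d.D x +
      ρ ^ 2 * S4.d0 d.D x :=
    (((cont_hh s1 s2).add (PJ.H341.cont_nq (PJ.H341.sm_sub p2 p1))).add (cont_d1 hDs)).add
      (continuous_const.mul (cont_d0 hDs))
  have low : wI (chi n σ R kap Gs ζ) g ρ (U0 d.s₁ d.s₂ d.P₁ d.P₂ d.D) ≤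
      wI (chi n σ R kap Gs ζ) g ρ (fun x => hh d.s₁ d.s₂ x + nq (d.P₂ x - d.P₁ x) +
        S4.d1 d.D x + ρ ^ 2 * S4.d0 d.D x) := by
    refine wI_mono hχc (cc_cs hcc) hgc cU cA ρ fun x _ => ?_
    have a1 : S4.d0 d.D x ≤ ρ ^ 2 * S4.d0 d.D x :=
      le_mul_of_one_le_left (d0_nonneg d.D x) (one_le_pow₀ r3)
    unfold U0
    linarith
  have g0 : 0 < Real.exp (-(2 * ρ * Gs)) := Real.exp_pos _
  have fin := mul_le_mul_of_nonneg_left (low.trans ge) g0.le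
  refine fin.trans (le_of_eq ?_)
  unfold VD
  ring

end Vale.Agent.P088.S4.H870.P3N

end
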